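import Vale.Agent.P017.H766.Legendre

/-!
# Legendre's theorem for `2 z² = a x² + b y²`

`legendre2`: if `ab > 1` is squarefree and odd, `2a` is a square modulo every prime dividing `b`
and `2b` is a square modulo every prime dividing `a`, then `2 z² = a x² + b y²` has an integer
solution with `z ≠ 0`.
-/

namespace Vale.Agent.P017.H102

open P017.H766

/-- **Legendre's theorem** for `2 z² = a x² + b y²`, `ab > 1` odd and squarefree. -/
theorem legendre2 {a b : ℕ} (hs : Squarefree (a * b)) (ha2 : a % 2 = 1) (hb2 : b % 2 = 1)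
    (hab1 : 1 < a * b)
    (h1 : ∀ q : ℕ, q.Prime → q ∣ b → IsSquare ((2 * a : ℕ) : ZMod q))
    (h2 : ∀ q : ℕ, q.Prime → q ∣ a → IsSquare ((2 * b : ℕ) : ZMod q)) :
    ∃ x y z : ℤ, 2 * z ^ 2 = a * x ^ 2 + b * y ^ 2 ∧ z ≠ 0 := by
  have hsa : Squarefree a := hs.squarefree_of_dvd (Dvd.intro _ rfl)
  have hsb : Squarefree b := hs.squarefree_of_dvd (Dvd.intro_left _ rfl)
  have hcop : Nat.Coprime a b := Nat.coprime_of_squarefree_mul hs
  have hs2 : ∀ n : ℕ, n % 2 = 1 → Squarefree n → Squarefree (2 * n) := by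
    intro n hn hsn
    have hc : Nat.Coprime 2 n := by
      exact (Nat.Prime.coprime_iff_not_dvd Nat.prime_two).mpr (by omega)
    exact (Nat.squarefree_mul hc).mpr ⟨Nat.prime_two.prime.squarefree, hsn⟩
  obtain ⟨α, hα⟩ := sq_mod_squarefree ((2 * a : ℕ) : ℤ) b hsb
    (fun q hq hqb => exists_int_of_isSquare (h1 q hq hqb))
  obtain ⟨β, hβ⟩ := sq_mod_squarefree ((2 * b : ℕ) : ℤ) a hsa
    (fun q hq hqa => exists_int_of_isSquare (h2 q hq hqa))
  push_cast at hα hβ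
  have : NeZero a := ⟨by omega⟩
  have : NeZero b := ⟨by omega⟩
  -- the box
  let s : Finset (ℕ × ℕ × ℕ) := (Finset.range (Nat.sqrt (2 * b) + 1)) ×ˢ
    ((Finset.range (Nat.sqrt (2 * a) + 1)) ×ˢ (Finset.range (Nat.sqrt (a * b) + 1)))
  let f : ℕ × ℕ × ℕ → ZMod b × ZMod a × ZMod 2 := fun p =>
    ((((a : ℤ) * (p.1 : ℤ) - α * (p.2.2 : ℤ) : ℤ) : ZMod b),
      ((((b : ℤ) * (p.2.1 : ℤ) - β * (p.2.2 : ℤ) : ℤ) : ZMod a),
        (((p.1 : ℤ) - (p.2.1 : ℤ) : ℤ) : ZMod 2)))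
  have hcard : (Finset.univ : Finset (ZMod b × ZMod a × ZMod 2)).card < s.card := by
    have e1 : (Finset.univ : Finset (ZMod b × ZMod a × ZMod 2)).card = b * (a * 2) := by
      rw [Finset.card_univ, Fintype.card_prod, Fintype.card_prod, ZMod.card, ZMod.card, ZMod.card]
    have e2 : s.card =
        (Nat.sqrt (2 * b) + 1) * ((Nat.sqrt (2 * a) + 1) * (Nat.sqrt (a * b) + 1)) := by
      simp [s, Finset.card_product]
    rw [e1, e2]
    have l1 := Nat.lt_succ_sqrt (2 * b)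
    have l2 := Nat.lt_succ_sqrt (2 * a)
    have l3 := Nat.lt_succ_sqrt (a * b)
    rw [Nat.succ_eq_add_one] at l1 l2 l3
    by_contra hcon
    push Not at hcon
    have k1 : ((Nat.sqrt (2 * b) + 1) * ((Nat.sqrt (2 * a) + 1) * (Nat.sqrt (a * b) + 1))) *
        ((Nat.sqrt (2 * b) + 1) * ((Nat.sqrt (2 * a) + 1) * (Nat.sqrt (a * b) + 1))) ≤
        (b * (a * 2)) * (b * (a * 2)) :=
      Nat.mul_le_mul hcon hcon
    have k2 : (2 * b) * ((2 * a) * (a * b)) <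
        ((Nat.sqrt (2 * b) + 1) * (Nat.sqrt (2 * b) + 1)) *
        (((Nat.sqrt (2 * a) + 1) * (Nat.sqrt (2 * a) + 1)) *
          ((Nat.sqrt (a * b) + 1) * (Nat.sqrt (a * b) + 1))) := by
      apply Nat.mul_lt_mul_of_lt_of_lt l1
      exact Nat.mul_lt_mul_of_lt_of_lt l2 l3
    have k3 : ((Nat.sqrt (2 * b) + 1) * (Nat.sqrt (2 * b) + 1)) *
        (((Nat.sqrt (2 * a) + 1) * (Nat.sqrt (2 * a) + 1)) *
          ((Nat.sqrt (a * b) + 1) * (Nat.sqrt (a * b) + 1))) =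
        ((Nat.sqrt (2 * b) + 1) * ((Nat.sqrt (2 * a) + 1) * (Nat.sqrt (a * b) + 1))) *
        ((Nat.sqrt (2 * b) + 1) * ((Nat.sqrt (2 * a) + 1) * (Nat.sqrt (a * b) + 1))) := by ring
    have k4 : (2 * b) * ((2 * a) * (a * b)) = (b * (a * 2)) * (b * (a * 2)) := by ring
    rw [k3, k4] at k2
    exact absurd k1 (not_le.mpr k2)
  obtain ⟨p, hp, p', hp', hne, hf⟩ :=
    Finset.exists_ne_map_eq_of_card_lt_of_maps_to hcard (f := f) (fun _ _ => Finset.mem_univ _)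
  obtain ⟨x1, y1, z1⟩ := p
  obtain ⟨x2, y2, z2⟩ := p'
  simp only [s, Finset.mem_product, Finset.mem_range] at hp hp'
  simp only [f, Prod.mk.injEq] at hf
  obtain ⟨hx1, hy1, hz1⟩ := hp
  obtain ⟨hx2, hy2, hz2⟩ := hp'
  obtain ⟨hf1, hf2, hf3⟩ := hf
  -- the difference
  have sqlt : ∀ (n : ℕ), Squarefree n → 1 < n → ∀ u v : ℕ, u < Nat.sqrt n + 1 →
      v < Nat.sqrt n + 1 → ((u : ℤ) - v) ^ 2 < n := by
    intro n hn h1n u v hu hv
    have key : ((u : ℤ) - v).natAbs ≤ Nat.sqrt n := by omega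
    have k1 : ((u : ℤ) - v).natAbs ^ 2 ≤ n := by
      calc ((u : ℤ) - v).natAbs ^ 2 ≤ (Nat.sqrt n) ^ 2 := Nat.pow_le_pow_left key 2
        _ ≤ n := Nat.sqrt_le' n
    have k2 : ((u : ℤ) - v).natAbs ^ 2 < n :=
      lt_of_le_of_ne k1 (sq_ne_of_squarefree hn h1n _)
    have k3 : ((((u : ℤ) - v).natAbs ^ 2 : ℕ) : ℤ) < (n : ℤ) := by exact_mod_cast k2
    have k4 : ((((u : ℤ) - v).natAbs ^ 2 : ℕ) : ℤ) = ((u : ℤ) - v) ^ 2 := by
      push_cast
      rw [sq_abs]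
    rw [k4] at k3
    exact k3
  set x : ℤ := (x1 : ℤ) - x2 with hx
  set y : ℤ := (y1 : ℤ) - y2 with hy
  set z : ℤ := (z1 : ℤ) - z2 with hz
  have bx : x ^ 2 < ((2 * b : ℕ) : ℤ) := sqlt (2 * b) (hs2 b hb2 hsb) (by omega) x1 x2 hx1 hx2
  have by' : y ^ 2 < ((2 * a : ℕ) : ℤ) := sqlt (2 * a) (hs2 a ha2 hsa) (by omega) y1 y2 hy1 hy2
  have bz : z ^ 2 < ((a * b : ℕ) : ℤ) := sqlt (a * b) hs hab1 z1 z2 hz1 hz2
  push_cast at bx by' bz
  have hcz : IsCoprime (a : ℤ) (b : ℤ) := Nat.isCoprime_iff_coprime.mpr hcop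
  have c1 : (b : ℤ) ∣ a * x - α * z := by
    rw [← ZMod.intCast_zmod_eq_zero_iff_dvd]
    have : a * x - α * z = ((a : ℤ) * x1 - α * z1) - ((a : ℤ) * x2 - α * z2) := by
      rw [hz, hx]; ring
    rw [this, Int.cast_sub, hf1, sub_self]
  have c2 : (a : ℤ) ∣ b * y - β * z := by
    rw [← ZMod.intCast_zmod_eq_zero_iff_dvd]
    have : b * y - β * z = ((b : ℤ) * y1 - β * z1) - ((b : ℤ) * y2 - β * z2) := by
      rw [hz, hy]; ring
    rw [this, Int.cast_sub, hf2, sub_self]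
  have c3 : ((2 : ℕ) : ℤ) ∣ x - y := by
    rw [← ZMod.intCast_zmod_eq_zero_iff_dvd]
    have : x - y = ((x1 : ℤ) - y1) - ((x2 : ℤ) - y2) := by rw [hx, hy]; ring
    rw [this, Int.cast_sub, hf3, sub_self]
  have d1 : (b : ℤ) ∣ a * x ^ 2 + b * y ^ 2 - 2 * z ^ 2 := by
    have e : (b : ℤ) ∣ a * (a * x ^ 2 + b * y ^ 2 - 2 * z ^ 2) := by
      have : (a : ℤ) * (a * x ^ 2 + b * y ^ 2 - 2 * z ^ 2) =
          (a * x - α * z) * (a * x + α * z) + (α ^ 2 - 2 * a) * z ^ 2 + b * (a * y ^ 2) := by ring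
      rw [this]
      exact dvd_add (dvd_add (Dvd.dvd.mul_right c1 _) (Dvd.dvd.mul_right hα _)) (Dvd.intro _ rfl)
    exact hcz.symm.dvd_of_dvd_mul_left e
  have d2 : (a : ℤ) ∣ a * x ^ 2 + b * y ^ 2 - 2 * z ^ 2 := by
    have e : (a : ℤ) ∣ b * (a * x ^ 2 + b * y ^ 2 - 2 * z ^ 2) := by
      have : (b : ℤ) * (a * x ^ 2 + b * y ^ 2 - 2 * z ^ 2) =
          (b * y - β * z) * (b * y + β * z) + (β ^ 2 - 2 * b) * z ^ 2 + a * (b * x ^ 2) := by ring
      rw [this]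
      exact dvd_add (dvd_add (Dvd.dvd.mul_right c2 _) (Dvd.dvd.mul_right hβ _)) (Dvd.intro _ rfl)
    exact hcz.dvd_of_dvd_mul_left e
  have d3 : (2 : ℤ) ∣ a * x ^ 2 + b * y ^ 2 - 2 * z ^ 2 := by
    obtain ⟨t, ht⟩ := c3
    obtain ⟨a', ha'⟩ : ∃ a' : ℤ, (a : ℤ) = 2 * a' + 1 := ⟨a / 2, by omega⟩
    obtain ⟨b', hb'⟩ : ∃ b' : ℤ, (b : ℤ) = 2 * b' + 1 := ⟨b / 2, by omega⟩
    have hxy : x = y + 2 * t := by push_cast at ht; linarith
    refine ⟨a' * x ^ 2 + b' * y ^ 2 + y ^ 2 + 2 * y * t + 2 * t ^ 2 - z ^ 2, ?_⟩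
    rw [ha', hb', hxy]
    ring
  have hc2 : IsCoprime ((a : ℤ) * b) 2 := by
    have h3 : Nat.Coprime (a * b) 2 := by
      refine Nat.Coprime.symm ((Nat.Prime.coprime_iff_not_dvd Nat.prime_two).mpr ?_)
      have : (a * b) % 2 = 1 := by rw [Nat.mul_mod, ha2, hb2]
      omega
    have h4 := Nat.isCoprime_iff_coprime.mpr h3
    push_cast at h4
    exact h4
  obtain ⟨k, hk⟩ := hc2.mul_dvd (hcz.mul_dvd d2 d1) d3
  have ha0 : (0 : ℤ) < a := by exact_mod_cast (by omega : 0 < a)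
  have hb0 : (0 : ℤ) < b := by exact_mod_cast (by omega : 0 < b)
  have hab0 : (0 : ℤ) < (a : ℤ) * b := mul_pos ha0 hb0
  have q1 : (a : ℤ) * x ^ 2 < a * (2 * b) := mul_lt_mul_of_pos_left bx ha0
  have q2 : (b : ℤ) * y ^ 2 < b * (2 * a) := mul_lt_mul_of_pos_left by' hb0
  have q1' : (a : ℤ) * x ^ 2 < 2 * (a * b) := by
    have : (a : ℤ) * (2 * b) = 2 * (a * b) := by ring
    linarith
  have q2' : (b : ℤ) * y ^ 2 < 2 * (a * b) := by
    have : (b : ℤ) * (2 * a) = 2 * (a * b) := by ring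
    linarith
  have q3 : (0 : ℤ) ≤ a * x ^ 2 := by positivity
  have q4 : (0 : ℤ) ≤ b * y ^ 2 := by positivity
  have q5 : (0 : ℤ) ≤ z ^ 2 := by positivity
  have hk1 : k < 2 := by
    by_contra hcon
    push Not at hcon
    have : (a : ℤ) * b * 2 * 2 ≤ a * b * 2 * k :=
      mul_le_mul_of_nonneg_left hcon (by linarith)
    linarith
  have hk2 : -1 < k := by
    by_contra hcon
    push Not at hcon
    have : (a : ℤ) * b * 2 * k ≤ a * b * 2 * (-1) :=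
      mul_le_mul_of_nonneg_left hcon (by linarith)
    linarith
  have hk3 : k = 0 ∨ k = 1 := by omega
  rcases hk3 with rfl | rfl
  · -- the value is zero
    refine ⟨x, y, z, by linarith, ?_⟩
    intro hz0
    have e : (a : ℤ) * x ^ 2 + b * y ^ 2 = 0 := by rw [hz0] at hk; linarith
    have ex : (a : ℤ) * x ^ 2 = 0 := by linarith
    have ey : (b : ℤ) * y ^ 2 = 0 := by linarith
    have ex' : x = 0 := by
      rcases mul_eq_zero.mp ex with h | h
      · exact absurd h ha0.ne'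
      · exact pow_eq_zero_iff (two_ne_zero) |>.mp h
    have ey' : y = 0 := by
      rcases mul_eq_zero.mp ey with h | h
      · exact absurd h hb0.ne'
      · exact pow_eq_zero_iff (two_ne_zero) |>.mp h
    apply hne
    have g1 : x1 = x2 := by omega
    have g2 : y1 = y2 := by omega
    have g3 : z1 = z2 := by omega
    rw [g1, g2, g3]
  · -- the value is `2ab`
    refine ⟨x * z + b * y, y * z - a * x, z ^ 2 + a * b, ?_, ?_⟩
    · have e : (a : ℤ) * x ^ 2 + b * y ^ 2 = 2 * (z ^ 2 + a * b) := by linarith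
      have : (a : ℤ) * (x * z + b * y) ^ 2 + b * (y * z - a * x) ^ 2
          = (z ^ 2 + a * b) * (a * x ^ 2 + b * y ^ 2) := by ring
      rw [this, e]; ring
    · positivity

end Vale.Agent.P017.H102
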